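import Vale.Agent.P305GH.Main

/-!
# The calls of the box that belong to the operations on the graph of all copies
-/

set_option linter.all false

namespace Vale.Agent.P305SC

open Vale.Agent.P305E Vale.Agent.P305C Vale.Agent.P305LC Vale.Agent.P305GH Finset

/-- The slots `s, …, s + k - 1` are hung on the copy `a`. -/
def slots (H : Hs) (F s a : ℕ) : ℕ → Hs
  | 0 => H
  | k + 1 => (slots H F s a k).slot F (s + k) a

section ghost
variable {H : Hs} {Q F γ R s a k : ℕ}

@[simp] theorem slots_w : (slots H F s a k).w = H.w := by induction k <;> simp [slots, Hs.slot, *]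
@[simp] theorem slots_J : (slots H F s a k).J = H.J := by induction k <;> simp [slots, Hs.slot, *]
@[simp] theorem slots_I : (slots H F s a k).I = H.I := by induction k <;> simp [slots, Hs.slot, *]
@[simp] theorem slots_cs : (slots H F s a k).cs = H.cs := by
  induction k <;> simp [slots, Hs.slot, *]
@[simp] theorem slots_scn : (slots H F s a k).G.scn = H.G.scn := by
  induction k <;> simp [slots, Hs.slot, OG.node, OG.arc, *]
@[simp] theorem slots_wJ : (slots H F s a k).wJ = H.wJ := by simp [Hs.wJ]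

theorem slots_O (x : ℕ) : x ∈ (slots H F s a k).O ↔ x ∈ H.O ∨ (s ≤ x ∧ x < s + k) := by
  induction k with
  | zero => simp [slots]
  | succ k ih => simp only [slots, Hs.slot, mem_insert, ih]; grind

theorem slots_fr (x : ℕ) : x ∈ (slots H F s a k).fr ↔ x ∈ H.fr ∨ (s ≤ x ∧ x < s + k) := by
  induction k with
  | zero => simp [slots]
  | succ k ih => simp only [slots, Hs.slot, mem_insert, ih]; grind

theorem slots_V (x : ℕ) : x ∈ (slots H F s a k).G.V ↔ x ∈ H.G.V ∨ (s ≤ x ∧ x < s + k) := by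
  induction k with
  | zero => simp [slots]
  | succ k ih => simp only [slots, Hs.slot, OG.node, OG.arc, mem_insert, ih]; grind

theorem slots_slot (x : ℕ) :
    x ∈ (slots H F s a k).G.slot ↔ x ∈ H.G.slot ∨ (s ≤ x ∧ x < s + k) := by
  induction k with
  | zero => simp [slots]
  | succ k ih => simp only [slots, Hs.slot, OG.node, OG.arc, if_true, mem_insert, ih]; grind

theorem slots_arcs (e : Ac) : e ∈ (slots H F s a k).G.arcs ↔
    e ∈ H.G.arcs ∨ (e.1 = a ∧ s ≤ e.2.1 ∧ e.2.1 < s + k ∧ e.2.2 = F) := by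
  obtain ⟨x, y, z⟩ := e
  induction k with
  | zero => simp [slots]; omega
  | succ k ih =>
    simp only [slots, Hs.slot, OG.node, OG.arc, List.mem_cons, Prod.mk.injEq] at ih ⊢
    rw [ih]; grind

theorem slots_nd (ha : a < s ∨ s + k ≤ a) (x : ℕ) :
    (slots H F s a k).nd x = if s ≤ x ∧ x < s + k then H.nd a else H.nd x := by
  induction k generalizing x with
  | zero => simp [slots]
  | succ k ih =>
    have ih' := ih (by omega)
    simp only [slots, Hs.slot, Function.update_apply, ih']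
    split_ifs <;> first | rfl | omega

theorem slots_size : (slots H F s a k).G.size ≤ H.G.size + 2 * k := by
  induction k with
  | zero => simp [slots]
  | succ k ih =>
    have := card_insert_le (s + k) (slots H F s a k).G.V
    simp only [slots, Hs.slot, OG.node, OG.arc, OG.size, List.length_cons] at ih ⊢
    omega

theorem slots_card : (slots H F s a k).G.V.card ≤ H.G.V.card + k := by
  induction k with
  | zero => simp [slots]
  | succ k ih =>
    have := card_insert_le (s + k) (slots H F s a k).G.V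
    simp only [slots, Hs.slot, OG.node, OG.arc] at ih ⊢
    omega

theorem slots_P (hs : ∀ x, s ≤ x → x < s + k → x ∉ H.O) (ha : a ∈ H.O) :
    (slots H F s a k).P = H.P := by
  induction k with
  | zero => rfl
  | succ k ih =>
    rw [slots, Hs.P_slot, ih fun x h h' => hs x h (by omega)]
    · rw [slots_O]
      have := hs (s + k) (by omega) (by omega)
      simp [this]
    · rw [slots_O]; exact .inl ha

theorem slots_ok (h : H.OK Q F γ R) (hs : ∀ x, s ≤ x → x < s + k → x ∉ H.G.V) (ha : a ∈ H.O)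
    (hw : H.w a ≠ 0) : (slots H F s a k).OK Q F γ R := by
  induction k with
  | zero => exact h
  | succ k ih =>
    refine (ih fun x h h' => hs x h (by omega)).slot ?_ ?_ (by simpa using hw)
    · rw [slots_V]
      have := hs (s + k) (by omega) (by omega)
      simp [this]
    · rw [slots_O]; exact .inl ha

theorem pair_size {y m p : ℕ} : (H.pair Q F s y m p).G.size ≤ H.G.size + 5 := by
  have := card_insert_le y H.G.V
  have := card_insert_le m (insert y H.G.V)
  simp only [Hs.pair, OG.node, OG.arc, OG.size, List.length_cons]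
  omega

theorem root_size {r p : ℕ} : (H.root Q r p).G.size ≤ H.G.size + 1 := by
  have := card_insert_le r H.G.V
  simp only [Hs.root, OG.node, OG.size]
  omega

end ghost

section prog
variable {β : Type} (X : Bx β)

/-- The calls for `slots`. -/
def slotsP (F s a k : ℕ) (bx : β) : M β :=
  iterM (fun z i => num (s + i) >>= fun x => X.node z x 0 true >>= fun z' => X.arc z' (a, x, F))
    bx k

/-- The calls for `Hs.pair`. -/
def pairP (Q F s y m : ℕ) (bx : β) : M β :=
  X.node bx y 0 false >>= fun z => X.node z m 0 false >>= fun z => X.arc z (y, m, Q) >>= fun z =>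
    X.arc z (m, y, F) >>= fun z => X.arc z (s, y, F)

variable {X} [Rep β] {c : ℕ} {g : ℕ → ℕ} {I : ℕ → ℕ → ℕ → OG → β → ℕ → Prop}

theorem impl_node (h : BoxOK False X c g I) {α : Type} [Rep α] {z : α → β} {v a : α → ℕ}
    {sl : α → Bool} (hz : Pure z) (hv : Pure v) (ha : Pure a) (hs : Pure sl) :
    Impl fun x => X.node (z x) (v x) (a x) (sl x) :=
  h.inode.comp (g := fun x => (z x, v x, a x, sl x)) (by fun_prop)

theorem impl_arc (h : BoxOK False X c g I) {α : Type} [Rep α] {z : α → β} {e : α → Ac}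
    (hz : Pure z) (he : Pure e) : Impl fun x => X.arc (z x) (e x) :=
  h.iarc.comp (g := fun x => (z x, e x)) (by fun_prop)

theorem impl_slotsP (h : BoxOK False X c g I) {α : Type} [Rep α] {F s a k : α → ℕ} {z : α → β}
    (hF : Pure F) (hs : Pure s) (ha : Pure a) (hk : Pure k) (hz : Pure z) :
    Impl fun x => slotsP X (F x) (s x) (a x) (k x) (z x) := by
  unfold slotsP
  refine Impl.iterM (Impl.bind (by fun_prop) (Impl.bind (impl_node h ?_ ?_ ?_ ?_)
    (impl_arc h ?_ ?_))) hz hk <;> fun_prop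

theorem impl_pairP (h : BoxOK False X c g I) {α : Type} [Rep α] {Q F s y m : α → ℕ} {z : α → β}
    (hQ : Pure Q) (hF : Pure F) (hs : Pure s) (hy : Pure y) (hm : Pure m) (hz : Pure z) :
    Impl fun x => pairP X (Q x) (F x) (s x) (y x) (m x) (z x) := by
  unfold pairP
  refine Impl.bind (impl_node h ?_ ?_ ?_ ?_) (Impl.bind (impl_node h ?_ ?_ ?_ ?_)
    (Impl.bind (impl_arc h ?_ ?_) (Impl.bind (impl_arc h ?_ ?_) (impl_arc h ?_ ?_)))) <;> fun_prop

variable {B b Q F φ : ℕ} {H : Hs} {bx : β}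

theorem slotsP_vt (h : BoxOK False X c g I) {s a k : ℕ} (hI : I B b 1 H.G bx φ)
    (hs : ∀ x, s ≤ x → x < s + k → x ∉ H.G.V) (ha : a ∈ H.G.V) (hz : H.G.size + 2 * k ≤ 2 ^ b)
    (hF : F ≤ 2 ^ b) (hB : s + k ≤ B) :
    Vt b B (slotsP X F s a k bx) fun z t =>
      ∃ φ', I B b 1 (slots H F s a k).G z φ' ∧ t + φ' ≤ φ + k * (2 * g b + 1) := by
  refine Vt.iterM (fun k z t => ∃ φ', I B b 1 (slots H F s a k).G z φ' ∧
    t + φ' ≤ φ + k * (2 * g b + 1)) ⟨φ, hI, by omega⟩ ?_
  rintro i z t hi ⟨φ₁, h1, h2⟩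
  have e1 := slots_size (H := H) (F := F) (s := s) (a := a) (k := i)
  have hv : s + i ∉ (slots H F s a i).G.V := by
    rw [slots_V]
    have := hs (s + i) (by omega) (by omega)
    simp [this]
  have hav : a ∈ (slots H F s a i).G.V := (slots_V _).2 (.inl ha)
  refine Vt.num_bind (by omega) ((h.node B b 1 _ z φ₁ (s + i) 0 true h1 (by omega) hv False.elim
    (Nat.zero_le _)).bind ?_)
  rintro z' t' ⟨φ₂, h3, h4⟩
  refine (h.arc B b 1 _ z' φ₂ (a, s + i, F) h3 ?_ ?_ ?_ ?_ hF).mono ?_
  · have := card_insert_le (s + i) (slots H F s a i).G.V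
    simp only [OG.size, OG.node] at e1 hz ⊢
    omega
  · exact mem_insert_of_mem hav
  · exact mem_insert_self _ _
  · rintro (rfl : a = s + i)
    exact hv hav
  · rintro z'' t'' ⟨φ₃, h5, h6⟩
    exact ⟨φ₃, h5, by rw [Nat.add_mul]; omega⟩

theorem pairP_vt (h : BoxOK False X c g I) {s y m : ℕ} (p : ℕ) (hI : I B b 1 H.G bx φ)
    (hs : s ∈ H.G.V) (hy : y ∉ H.G.V) (hm : m ∉ H.G.V) (hym : y ≠ m)
    (hz : H.G.size + 5 ≤ 2 ^ b) (hQ : Q ≤ 2 ^ b) (hF : F ≤ 2 ^ b) :
    Vt b B (pairP X Q F s y m bx) fun z t =>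
      ∃ φ', I B b 1 (H.pair Q F s y m p).G z φ' ∧ t + φ' ≤ φ + 5 * g b := by
  have c1 := card_insert_le y H.G.V
  have c2 := card_insert_le m (insert y H.G.V)
  have hsy : s ≠ y := fun e => hy (e ▸ hs)
  simp only [OG.size] at hz
  refine (h.node B b 1 _ bx φ y 0 false hI (by simp only [OG.size]; omega) hy False.elim
    (Nat.zero_le _)).bind ?_
  rintro z1 t1 ⟨φ1, a1, b1⟩
  refine (h.node B b 1 _ z1 φ1 m 0 false a1 (by simp only [OG.size, OG.node]; omega)
    (by simp [OG.node, hm, hym.symm]) False.elim (Nat.zero_le _)).bind ?_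
  rintro z2 t2 ⟨φ2, a2, b2⟩
  refine (h.arc B b 1 _ z2 φ2 (y, m, Q) a2 (by simp only [OG.size, OG.node]; omega)
    (by simp [OG.node]) (by simp [OG.node]) hym hQ).bind ?_
  rintro z3 t3 ⟨φ3, a3, b3⟩
  refine (h.arc B b 1 _ z3 φ3 (m, y, F) a3
    (by simp only [OG.size, OG.node, OG.arc, List.length_cons]; omega)
    (by simp [OG.node, OG.arc]) (by simp [OG.node, OG.arc]) hym.symm hF).bind ?_
  rintro z4 t4 ⟨φ4, a4, b4⟩
  refine (h.arc B b 1 _ z4 φ4 (s, y, F) a4
    (by simp only [OG.size, OG.node, OG.arc, List.length_cons]; omega)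
    (by simp [OG.node, OG.arc, hs]) (by simp [OG.node, OG.arc]) hsy hF).mono ?_
  rintro z5 t5 ⟨φ5, a5, b5⟩
  exact ⟨φ5, a5, by omega⟩

end prog

end Vale.Agent.P305SC
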