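import Vale.Agent.P305SC.Box
import Vale.Agent.P305EN.Link
import Vale.Agent.P305BG.Beta
import Vale.Agent.P305BL.Store

/-!
# New roots, pairs and arcs: the parts of the invariant
-/

set_option linter.all false

namespace Vale.Agent.P305SC

open Vale.Agent.P305 Vale.Agent.P305LC Vale.Agent.P305N Vale.Agent.P305BL Vale.Agent.P305BG
  Vale.Agent.P305EN Finset

variable {n b U al β : ℕ} {A : ℕ → ℕ → Prop} {s : St} {V : Vw} {top vx nb top' vx' nb' vol : ℕ → ℕ}

theorem mem_vts {Ps Ys : Finset ℕ} {v : ℕ} : v ∈ vts n s top vx Ps Ys ↔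
    (∃ p ∈ Ps, v ∈ s.V n (top p)) ∨ ∃ y ∈ Ys, vx y = v := by simp [vts]

theorem vts_congr {Ps Ys : Finset ℕ} (h : ∀ p ∈ Ps, top' p = top p) (h' : ∀ y ∈ Ys, vx' y = vx y) :
    vts n s top' vx' Ps Ys = vts n s top vx Ps Ys := by
  ext v
  simp only [mem_vts]
  exact or_congr (exists_congr fun p => and_congr_right fun hp => by rw [h p hp])
    (exists_congr fun y => and_congr_right fun hy => by rw [h' y hy])

theorem emb_congr (h : Emb n A s V top vx nb) (ok : V.OK b) (h1 : ∀ p ∈ V.P, top' p = top p)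
    (h2 : ∀ y ∈ V.I, vx' y = vx y) (h3 : ∀ k, V.tl k ≠ 0 → nb' k = nb k) :
    Emb n A s V top' vx' nb' :=
  ⟨fun p hp => h1 p hp ▸ h.node p hp,
    fun p hp q hq ne => by rw [h1 p hp, h1 q hq]; exact h.disj p hp q hq ne,
    fun y hy z hz e => h.inj hy hz (by rwa [h2 y hy, h2 z hz] at e),
    fun y hy => by
      rw [h2 y hy]
      exact ⟨(h.inn y hy).1, fun p hp => by rw [h1 p hp]; exact (h.inn y hy).2 p hp⟩,
    fun k hk => by
      rw [h3 k hk, h1 _ (ok.arc k hk).1, h2 _ (ok.arc k hk).2]; exact h.arc k hk⟩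

theorem emb_empty (n : ℕ) (A : ℕ → ℕ → Prop) (s : St) (top vx nb : ℕ → ℕ) :
    Emb n A s Vw.empty top vx nb :=
  ⟨by simp [Vw.empty], by simp [Vw.empty], by simp [Vw.empty], by simp [Vw.empty],
    by simp [Vw.empty]⟩

/-- A vertex that is not labelled becomes a node. -/
theorem emb_root (h : Emb n A s V top vx nb) (hn : n ≤ s.nx) {p : ℕ} (hu : top p < n)
    (hW : top p ∉ vts n s top vx V.P V.I) : Emb n A s (V.root p) top vx nb := by
  rw [mem_vts, not_or, not_exists, not_exists] at hW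
  have a : ∀ q ∈ V.P, Disjoint (s.V n (top p)) (s.V n (top q)) := fun q hq => by
    rw [s.V_leaf hu, disjoint_singleton_left]
    exact fun z => hW.1 q ⟨hq, z⟩
  refine ⟨fun q hq => ?_, fun q hq r hr ne => ?_, h.inj, fun y hy => ⟨(h.inn y hy).1, fun q hq => ?_⟩,
    h.arc⟩
  · rcases mem_insert.1 hq with rfl | hq
    · exact .leaf hu hn
    · exact h.node q hq
  · rcases mem_insert.1 hq with e | hq <;> rcases mem_insert.1 hr with e' | hr
    · exact absurd (e.trans e'.symm) ne
    · exact e ▸ a r hr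
    · exact e' ▸ (a q hq).symm
    · exact h.disj q hq r hr ne
  · rcases mem_insert.1 hq with rfl | hq
    · rw [s.V_leaf hu, mem_singleton]
      exact fun e => hW.2 y ⟨hy, e⟩
    · exact (h.inn y hy).2 q hq

/-- A new arc. -/
theorem emb_add (h : Emb n A s V top vx nb) {k p : ℕ} (h1 : nb k ∈ s.V n (top p))
    (h2 : A (nb k) (vx (k / 3))) : Emb n A s (V.add k p) top vx nb := by
  refine ⟨h.node, h.disj, h.inj, h.inn, fun k' hk => ?_⟩
  simp only [Vw.add, Function.update_apply] at hk ⊢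
  split_ifs at hk ⊢ with e
  · exact e ▸ ⟨h1, h2⟩
  · exact h.arc k' hk

/-- A matched edge is labelled. -/
theorem emb_pair (h : Emb n A s V top vx nb) (hn : n ≤ s.nx) {k p : ℕ} (hu : top p < n)
    (hW : top p ∉ vts n s top vx V.P V.I) (hv : vx (k / 3) < n)
    (hW' : vx (k / 3) ∉ vts n s top vx V.P V.I) (ne : vx (k / 3) ≠ top p) (h1 : nb k = top p)
    (h2 : A (nb k) (vx (k / 3))) : Emb n A s (V.pair k p) top vx nb := by
  have r := emb_add (emb_root h hn hu hW) (k := k) (p := p)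
    (by rw [s.V_leaf hu, h1]; exact mem_singleton_self _) h2
  rw [mem_vts, not_or, not_exists, not_exists] at hW'
  refine ⟨r.node, r.disj, fun y hy z hz e => ?_, fun y hy => ?_, r.arc⟩
  · rcases mem_insert.1 (mem_coe.1 hy) with rfl | hy <;>
      rcases mem_insert.1 (mem_coe.1 hz) with rfl | hz
    · rfl
    · exact absurd ⟨hz, e.symm⟩ (hW'.2 z)
    · exact absurd ⟨hy, e⟩ (hW'.2 y)
    · exact h.inj hy hz e
  · rcases mem_insert.1 hy with rfl | hy
    · refine ⟨hv, fun q hq => ?_⟩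
      rcases mem_insert.1 hq with rfl | hq
      · rwa [s.V_leaf hu, mem_singleton]
      · exact fun z => hW'.1 q ⟨hq, z⟩
    · exact r.inn y hy

theorem vts_root {p : ℕ} (hu : top p < n) : vts n s top vx (V.root p).P (V.root p).I =
    insert (top p) (vts n s top vx V.P V.I) := by
  ext v
  simp only [mem_vts, Vw.root, mem_insert, exists_eq_or_imp, s.V_leaf hu, mem_singleton, or_assoc]

theorem vts_pair {k p : ℕ} (hu : top p < n) : vts n s top vx (V.pair k p).P (V.pair k p).I =
    insert (vx (k / 3)) (insert (top p) (vts n s top vx V.P V.I)) := by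
  ext v
  simp only [mem_vts, Vw.pair, mem_insert, exists_eq_or_imp, s.V_leaf hu, mem_singleton]
  grind

section split
variable {m : ℕ → ℕ} {W R D : Finset ℕ}

/-- A matched edge is labelled. -/
theorem split_pair (h : Split n A m W R D) {v : ℕ} (hv : v ∈ R) :
    Split n A m (insert v (insert (m v) W)) ((R.erase v).erase (m v)) D := by
  obtain ⟨a1, a2, a3, a4⟩ := h.pmo v hv
  refine ⟨fun w hw => ?_, fun w hw => ?_, fun w hw => ?_, fun w hw h1 h2 => ?_⟩
  · have := h.cov w hw
    simp only [mem_insert, mem_erase]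
    grind
  · simp only [mem_erase] at hw ⊢
    obtain ⟨b1, b2, b3, b4⟩ := h.pmo w hw.2.2
    refine ⟨⟨fun e => hw.2.1 ?_, fun e => hw.1 ?_, b1⟩, b2, b3, b4⟩
    · rw [← b2, e, a2]
    · rw [← b2, e]
  · simp only [mem_erase] at hw
    simp only [mem_insert, not_or]
    exact ⟨hw.2.1, hw.1, h.dR w hw.2.2⟩
  · simp only [mem_insert, not_or, mem_erase] at h1 h2
    exact h.fix w hw h1.2.2 fun z => h2 ⟨h1.2.1, h1.1, z⟩

end split

theorem cls_root {p : ℕ} (ok : V.OK b) (hp : p ∉ V.P) {Ps Ys : Finset ℕ}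
    (h : (V.root p).Cls Ps Ys) : V.Cls (Ps.erase p) Ys :=
  ⟨fun q hq => (mem_insert.1 (h.sP (mem_erase.1 hq).2)).resolve_left (mem_erase.1 hq).1, h.sI,
    fun k hk h0 => mem_erase.2 ⟨fun e => hp (e ▸ (ok.arc k h0).1), h.cl k hk h0⟩⟩

theorem cls_add {k p : ℕ} (hk : V.tl k = 0) {Ps Ys : Finset ℕ} (h : (V.add k p).Cls Ps Ys) :
    V.Cls Ps Ys := ⟨h.sP, h.sI, fun k' h1 h0 => by
  have e : k' ≠ k := fun e => h0 (e ▸ hk)
  have := h.cl k' h1
  simp only [Vw.add, Function.update_of_ne e] at this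
  exact this h0⟩

theorem vv_le {Ps Ys Ps' Ys' : Finset ℕ} (h : Ps ⊆ Ps') (h' : Ys ⊆ Ys') :
    vv vol Ps Ys ≤ vv vol Ps' Ys' :=
  Nat.add_le_add (sum_le_sum_of_subset h) (sum_le_sum_of_subset h')

theorem beta_empty : Beta Vw.empty vol U al β := fun Ps Ys h => by
  rw [subset_empty.1 h.sI]; simp

theorem beta_root (h : Beta V vol U al β) (ok : V.OK b) {p : ℕ} (hp : p ∉ V.P) :
    Beta (V.root p) vol U al β := fun Ps Ys c => by
  have a := h _ _ (cls_root ok hp c)
  have a1 := Nat.mul_le_mul_left U (card_erase_le (s := Ps) (a := p))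
  have a2 := Nat.mul_le_mul_left al (vv_le (vol := vol) (erase_subset p Ps) (Subset.refl Ys))
  omega

theorem beta_add (h : Beta V vol U al β) {k p : ℕ} (hk : V.tl k = 0) :
    Beta (V.add k p) vol U al β := fun Ps Ys c => h _ _ (cls_add hk c)

theorem beta_pair (h : Beta V vol U al β) (ok : V.OK b) {k p : ℕ} (hp : p ∉ V.P) (h0 : p ≠ 0)
    (hy : k / 3 ∉ V.I) : Beta (V.pair k p) vol U al β := fun Ps Ys c => by
  have c' : V.Cls (Ps.erase p) (Ys.erase (k / 3)) := by
    refine ⟨fun q hq => (mem_insert.1 (c.sP (mem_erase.1 hq).2)).resolve_left (mem_erase.1 hq).1,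
      fun q hq => (mem_insert.1 (c.sI (mem_erase.1 hq).2)).resolve_left (mem_erase.1 hq).1,
      fun k' h1 h2 => mem_erase.2 ⟨fun e => hp (e ▸ (ok.arc k' h2).1), ?_⟩⟩
    have e : k' ≠ k := fun e => (mem_erase.1 h1).1 (e ▸ rfl)
    have := c.cl k' (mem_erase.1 h1).2
    simp only [Vw.pair, Function.update_of_ne e] at this
    exact this h2
  have a := h _ _ c'
  have a2 := Nat.mul_le_mul_left al
    (vv_le (vol := vol) (erase_subset p Ps) (erase_subset (k / 3) Ys))
  by_cases hY : k / 3 ∈ Ys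
  · have hP : p ∈ Ps := by
      have := c.cl k hY
      simp only [Vw.pair, Function.update_self] at this
      exact this h0
    rw [← card_erase_add_one hY, ← card_erase_add_one hP, Nat.mul_add, Nat.mul_add]
    omega
  · have a1 := Nat.mul_le_mul_left U (card_erase_le (s := Ps) (a := p))
    rw [erase_eq_of_notMem hY] at a a2
    omega

/-- The number of arcs of a node is at most three times the number of its vertices. -/
theorem deg_le (h : Emb n A s V top vx nb) (ok : V.OK b) {adj : ℕ → List ℕ}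
    (hA : ∀ u v, A u v → v ∈ adj u) (hd : ∀ u, (adj u).length ≤ 3)
    (hi : ∀ k k', V.tl k ≠ 0 → V.tl k' ≠ 0 → k / 3 = k' / 3 → nb k = nb k' → k = k') {p : ℕ}
    (hp : p ≠ 0) : V.deg b p ≤ 3 * (s.V n (top p)).card := by
  have a : V.deg b p ≤ ((s.V n (top p)).biUnion fun u => (adj u).toFinset.image fun w => (u, w)).card := by
    refine card_le_card_of_injOn (fun k => (nb k, vx (k / 3))) (fun k hk => ?_) fun k hk k' hk' e => ?_
    · have e := (mem_filter.1 hk).2
      have := h.arc k (e ▸ hp)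
      exact mem_biUnion.2 ⟨nb k, e ▸ this.1, mem_image_of_mem _ (List.mem_toFinset.2 (hA _ _ this.2))⟩
    · have e1 : V.tl k ≠ 0 := (mem_filter.1 hk).2 ▸ hp
      have e2 : V.tl k' ≠ 0 := (mem_filter.1 hk').2 ▸ hp
      exact hi k k' e1 e2 (h.inj (ok.arc k e1).2 (ok.arc k' e2).2 (Prod.mk.inj e).2) (Prod.mk.inj e).1
  rw [mul_comm]
  exact a.trans (card_biUnion_le_card_mul _ _ _ fun u _ =>
    card_image_le.trans ((List.toFinset_card_le _).trans (hd u)))

theorem deg_upd {V' : Vw} {k p : ℕ} (h : V'.tl = Function.update V.tl k p) (q : ℕ) :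
    V'.deg b q ≤ V.deg b q + if q = p then 1 else 0 := by
  unfold Vw.deg
  split_ifs with e
  · refine le_trans (card_le_card fun k' hk => ?_) (card_insert_le k _)
    simp only [h, mem_filter, Function.update_apply, mem_insert] at hk ⊢
    grind
  · refine le_trans (card_le_card fun k' hk => ?_) (Nat.le_add_right _ _)
    simp only [h, mem_filter, Function.update_apply] at hk ⊢
    grind

theorem deg_zero (ok : V.OK b) {p : ℕ} (hp : p ∉ V.P) (h0 : p ≠ 0) : V.deg b p = 0 :=
  card_eq_zero.2 (filter_eq_empty_iff.2 fun k _ e => hp (e ▸ (ok.arc k (e ▸ h0)).1))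

end Vale.Agent.P305SC
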