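import Vale.Agent.P305SC.Box
import Vale.Agent.P305GL.Basic

/-!
# The block SLOTS
-/

set_option linter.all false

namespace Vale.Agent.P305SC

open Vale.Agent.P305 Vale.Agent.P305E Vale.Agent.P305C Vale.Agent.P305LC Vale.Agent.P305N
  Vale.Agent.P305GH Vale.Agent.P305GL Finset

theorem slots_lk {H : Hs} {V : Vw} {Q F γ R s a k : ℕ} (l : Lk F H V) (h : H.OK Q F γ R)
    (hs : ∀ x, s ≤ x → x < s + k → x ∉ H.G.V) (ha : a ∈ H.O) (hw : H.w a ≠ 0) :
    Lk F (slots H F s a k) V := by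
  induction k with
  | zero => exact l
  | succ k ih =>
    have hs' : ∀ x, s ≤ x → x < s + k → x ∉ H.G.V := fun x h h' => hs x h (by omega)
    refine (ih hs').slot (slots_ok h hs' ha hw) ?_ ?_
    · rw [slots_V]
      have := hs (s + k) (by omega) (by omega)
      simp [this]
    · rw [slots_O]; exact .inl ha

variable {β : Type} [Rep β] {E : Env β} {x : Pm} {s : S} {g : Gs} {cur : Option ℕ} {Nw : List ℕ}
  {a : ℕ}

theorem vn_slot (s : S) (h : a % 4 = 0) {z : ℕ} (h1 : a + 1 ≤ z) (h2 : z < a + 4) :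
    s.vn z = s.vn a ∧ s.res z = s.res a := by
  have e : z / 4 = a / 4 := by omega
  unfold S.res S.vn
  rw [e]
  exact ⟨rfl, rfl⟩

/-- The slots of the first copy of the list are made. -/
theorem core_slots (h : Core x s g cur (a :: Nw)) :
    Core x s { g with H := slots g.H x.F (a + 1) a (x.deg (s.vn a)) } cur Nw := by
  obtain ⟨a1, a2, a3⟩ := h.nw.2 a List.mem_cons_self
  have d3 := deg_le3 x.toPr (s.vn a)
  have fr : ∀ z, a + 1 ≤ z → z < a + 1 + x.deg (s.vn a) → z ∉ g.H.G.V := fun z h1 h2 => by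
    have := a3 (z - (a + 1)) (by omega)
    rwa [show a + 1 + (z - (a + 1)) = z by omega] at this
  have r := h.rng a (h.gh.OV a1)
  have hw : g.H.w a ≠ 0 := fun e => r.2.1 e a2
  refine { h with
    gh := slots_ok h.gh fr a1 hw, lk := slots_lk h.lk h.gh fr a1 hw
    out := fun v hv => (slots_O _).2 (.inl (h.out v hv))
    ndO := fun z hz => ?_, jk := fun z hz => h.jk z (by simpa using hz), rng := fun z hz => ?_
    cop := fun j h1 h2 => (slots_V _).2 (.inl (h.cop j h1 h2))
    sl := fun z hz => ?_, pend := fun v hv i hi => ?_, now := fun z hz => ?_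
    nw := ⟨(List.nodup_cons.1 h.nw.1).2, fun z hz => ?_⟩, acc := by simpa [bud] using h.acc }
  · dsimp only at hz ⊢
    rw [slots_nd (.inl (by omega))]
    split_ifs with e
    · rw [h.ndO a a1, (vn_slot s a2 e.1 (by omega)).2]
    · exact h.ndO z (((slots_O _).1 hz).resolve_right e)
  · rcases (slots_V _).1 hz with hz | hz
    · simpa using h.rng z hz
    · refine ⟨by omega, ?_⟩
      simp only [slots_w, (h.gh.out z (fr z hz.1 hz.2)).1, true_iff]
      omega
  · rcases (slots_slot _).1 hz with hz | hz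
    · exact h.sl z hz
    · rw [(vn_slot s a2 hz.1 (by omega)).1]
      omega
  · rcases h.pend v hv i hi with c | c | c | c
    · exact .inl c
    · exact .inr (.inl ⟨(slots_slot _).2 (.inl c.1), by simpa using c.2⟩)
    · exact .inr (.inr (.inl c))
    · rcases List.mem_cons.1 c with c | c
      · have e := (h.own v fun e => h.net.ok.zP (e ▸ hv)).2.2.2.2
        rw [c] at e ⊢
        rw [← e] at hi
        refine .inr (.inl ⟨(slots_slot _).2 (.inr (by omega)), fun z => ?_⟩)
        exact fr (a + 1 + i) (by omega) (by omega) (h.gh.slotV (h.gh.scn (by simpa using z)))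
      · exact .inr (.inr (.inr c))
  · have := h.now z hz
    exact ⟨(slots_slot _).2 (.inl this.1), by simpa using this.2.1, (slots_fr _).2 (.inl this.2.2)⟩
  · obtain ⟨b1, b2, b3⟩ := h.nw.2 z (List.mem_cons_of_mem _ hz)
    have ne : z ≠ a := fun e => (List.nodup_cons.1 h.nw.1).1 (e ▸ hz)
    refine ⟨(slots_O _).2 (.inl b1), b2, fun i hi c => ?_⟩
    rcases (slots_V _).1 c with c | c
    · exact b3 i hi c
    · omega

/-- The program. -/
def slotsF (E : Env β) (p : Pr) (s : S) (Nw : List ℕ) (bx : β) : M β :=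
  foldM (fun z a => num (a + 1) >>= fun a' => slotsP E.X p.F a' a (p.deg (s.vn a)) z) bx Nw

theorem impl_slotsF (E : Env β) :
    Impl fun p : Pr × S × List ℕ × β => slotsF E p.1 p.2.1 p.2.2.1 p.2.2.2 := by
  unfold slotsF
  refine Impl.foldM (Impl.bind (by fun_prop) (impl_slotsP E.hX ?_ ?_ ?_ ?_ ?_)) ?_ ?_ <;> fun_prop

theorem slotsF_vt (hx : x.OK E) {bx : β} {φ : ℕ}
    (h : Core x s g cur Nw) (hI : E.I x.B x.b 1 g.H.G bx φ) :
    Vt x.b x.B (slotsF E x.toPr s Nw bx) fun r t => ∃ H' φ', Core x s { g with H := H' } cur [] ∧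
      E.I x.B x.b 1 H'.G r φ' ∧ H'.G.scn = g.H.G.scn ∧ t + φ' ≤ φ + x.Γ ^ 2 * (Nw.length + 1) := by
  refine (Vt.foldM (fun pre z t => ∃ H' φ', Core x s { g with H := H' } cur (Nw.drop pre.length) ∧
    E.I x.B x.b 1 H'.G z φ' ∧ H'.G.scn = g.H.G.scn ∧ t + φ' ≤ φ + x.Γ ^ 2 * pre.length)
    ⟨g.H, φ, h, hI, rfl, by simp⟩ ?_).mono ?_
  · rintro pre a rest z t rfl ⟨H', φ', h1, h2, h3, h4⟩
    rw [List.drop_left] at h1
    have h1' := core_slots h1
    obtain ⟨a1, a2, a3⟩ := h1.nw.2 a List.mem_cons_self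
    have d3 := deg_le3 x.toPr (s.vn a)
    have r := (h1.rng a (h1.gh.OV a1)).1
    have c1 := h1.nc_le hx
    have c3 : H'.G.size + 48 ≤ 2 ^ x.b := h1.size_lt hx
    have c4 := hx.sz
    have c5 := hx.pow_le
    refine Vt.num_bind (by omega) ((slotsP_vt (H := H') E.hX h2 (fun z h1 h2 => ?_) (h1.gh.OV a1)
      (by omega) hx.Fb (by omega)).mono ?_)
    · have := a3 (z - (a + 1)) (by omega)
      rwa [show a + 1 + (z - (a + 1)) = z by omega] at this
    · rintro z' t' ⟨φ'', b1, b2⟩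
      refine ⟨_, φ'', by simpa using h1', b1, by simpa using h3, ?_⟩
      have e1 := Nat.mul_le_mul d3 (show 2 * E.gX x.b + 1 ≤ 2 * x.Γ + 1 by have := hx.gX; omega)
      have e2 : 1000 * x.Γ ≤ x.Γ ^ 2 := by rw [sq]; exact Nat.mul_le_mul_right _ hx.big
      have := hx.big
      rw [List.length_append, List.length_singleton, Nat.mul_succ]
      omega
  · rintro z t ⟨H', φ', h1, h2, h3, h4⟩
    exact ⟨H', φ', by simpa using h1, h2, h3, by rw [Nat.mul_succ]; omega⟩

/-- **SLOTS.** -/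
theorem slots_blk : SLOTS := fun _ _ E =>
  ⟨slotsF E, impl_slotsF E, fun _ _ _ _ _ _ _ hx h hI => slotsF_vt hx h hI⟩

end Vale.Agent.P305SC
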